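import Vale.Agent.H8.P058Sph

open Finset
open Vale.Agent.H8.P058

/-- Both conjectured characterizations of finite Ramsey sets are false.
Ramsey does not imply subtransitive (kites with transcendental `t`), and spherical does not
imply Ramsey (twelve points of the unit circle with a transcendental coordinate). -/
theorem Vale.Agent.Results.P058.LRWAndSpherical.result :
    (∀ t : ℝ, 0 < t → t ≤ 1 / 2 → IsRamsey (kite t)) ∧
    (∀ t : ℝ, 0 < t → t ≤ 1 / 2 → Transcendental ℚ t → ¬ IsSubtransitive (kite t)) ∧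
    (∀ a b : ℝ, a ^ 2 + b ^ 2 = 1 → Transcendental ℚ a →
      IsSpherical (twelve a b) ∧ ¬ IsRamsey (twelve a b)) ∧
    (∃ A : Finset (E 2), A.card = 4 ∧ IsSpherical A ∧ IsRamsey A ∧ ¬ IsSubtransitive A) ∧
    (∃ A : Finset (E 2), A.Nonempty ∧ A.card ≤ 12 ∧ IsSpherical A ∧ ¬ IsRamsey A) ∧
    ¬ (∀ (d : ℕ) (A : Finset (E d)), A.Nonempty → (IsRamsey A ↔ IsSubtransitive A)) ∧
    ¬ (∀ (d : ℕ) (A : Finset (E d)), A.Nonempty → (IsRamsey A ↔ IsSpherical A)) := by
  obtain ⟨h1, h2, h3, h4⟩ := lrw_disproof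
  obtain ⟨h5, h6⟩ := spherical_not_ramsey
  refine ⟨h1, h2, h5, h3, h6, h4, fun h => ?_⟩
  obtain ⟨A, hA, _, hs, hr⟩ := h6
  exact hr ((h 2 A hA).2 hs)
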