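import Vale.Agent.H8.P058Main

open Finset
open Vale.Agent.H8.P058

/-- The Leader–Russell–Walters conjecture (a finite set is Ramsey iff it is subtransitive) is
false: every kite `{(-1,0), (1,0), (t, √(1-t²)), (t, -√(1-t²))}` with `0 < t ≤ 1/2` is Ramsey,
but it is not subtransitive when `t` is transcendental. -/
theorem Vale.Agent.Results.P058.LRWDisproof.result :
    (∀ t : ℝ, 0 < t → t ≤ 1 / 2 → IsRamsey (kite t)) ∧
    (∀ t : ℝ, 0 < t → t ≤ 1 / 2 → Transcendental ℚ t → ¬ IsSubtransitive (kite t)) ∧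
    (∃ A : Finset (E 2), A.card = 4 ∧ IsSpherical A ∧ IsRamsey A ∧ ¬ IsSubtransitive A) ∧
    ¬ (∀ (d : ℕ) (A : Finset (E d)), A.Nonempty → (IsRamsey A ↔ IsSubtransitive A)) :=
  lrw_disproof
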